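import Vale.Agent.P241GP.Sg

/-!
# Row P3: geometric fixed points of suspension spectra
-/

open CategoryTheory Topology OnePoint Matrix Filter

noncomputable section

namespace Vale.Agent.P241GP

open P251.St P251CX P241.St P241GX P241GR
open P241Z (fixIncl)

variable {G : Type} [Group G] [Finite G] (H : Subgroup G) (K : GSpace G)

/-- the inclusion of the fixed points -/
def fi (n : ℕ) (p : (K.fix H).carrier × (Fin n → ℝ)) :
    K.carrier × (Fin (Nat.card H * n) → ℝ) := (p.1.1, cd fun i (_ : H) => p.2 i)

theorem isClosedEmbedding_diag (n : ℕ) :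
    IsClosedEmbedding fun c : Fin n → ℝ => cd fun i (_ : H) => c i :=
  Function.LeftInverse.isClosedEmbedding (f := fun z i => dc z i (1 : H))
    (fun c => funext fun i => congrFun₂ (dc_cd fun i (_ : H) => c i) i 1)
    (continuous_pi fun i => (continuous_apply 1).comp ((continuous_apply i).comp continuous_dc))
    (continuous_cd.comp (continuous_pi fun i => continuous_pi fun _ => continuous_apply i))

theorem isEmbedding_fi (n : ℕ) : IsEmbedding (OnePoint.map (fi H K n)) := by
  have h : IsClosedEmbedding (fi H K n) :=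
    (K.isClosed_fixedPoints H).isClosedEmbedding_subtypeVal.prodMap (isClosedEmbedding_diag H n)
  exact ((continuous_mapP h.isProperMap).isClosedEmbedding
    (Option.map_injective h.injective)).isEmbedding

theorem mem_fi (n : ℕ) (z : OnePoint (K.carrier × (Fin (Nat.card H * n) → ℝ))) :
    z ∈ Set.range (OnePoint.map (fi H K n)) ↔
      ∀ g : H, OnePoint.map (fun p => ((g : G) • p.1, ap (act g n) p.2)) z = z := by
  constructor
  · rintro ⟨x, rfl⟩ g
    induction x using OnePoint.rec with
    | infty => rfl
    | coe x => exact congrArg OnePoint.some (Prod.ext (x.1.2 g) (ap_act g fun i _ => x.2 i))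
  · intro h
    induction z using OnePoint.rec with
    | infty => exact ⟨∞, rfl⟩
    | coe z =>
      obtain ⟨a, z⟩ := z
      obtain ⟨s, rfl⟩ := cd_surj z
      have h' := fun g => Prod.ext_iff.1 (OnePoint.coe_injective (h g))
      have e : (fun i (_ : H) => s i 1) = s := funext₂ fun i k => by
        have e := congrFun₂ (cd_inj ((ap_act k s).symm.trans (h' k).2)) i k
        rwa [tw, inv_mul_cancel] at e
      exact ⟨.some (⟨a, fun g => (h' g).1⟩, fun i => s i 1),
        congrArg OnePoint.some (Prod.ext rfl (congrArg cd e))⟩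

variable {K} {X : Action OSp G} {u : Pm K.und X.V 0}

theorem act_sgD (hu : EqvG K X 0 u) (g : G) {n : ℕ} (h : Emb n n) (z) :
    X.V.ac h ((X.ρ g).app _ ((sgD u).app n z)) =
      (sgD u).app n (OnePoint.map (fun p => (g • p.1, ap h p.2)) z) := by
  induction z using OnePoint.rec with
  | infty => exact (congrArg _ ((X.ρ g).ok _).2.1).trans (X.V.ac_bp _ _ _)
  | coe z =>
    have e : u.fn (.some (g • z.1)) = (X.ρ g).app 0 (u.fn (.some z.1)) :=
      (hu g _ (isAct_act g 0) (.some z.1)).trans (ac_zero X.V _ _)
    exact (congrArg _ (((X.ρ g).ok _).2.2 _ _ _)).trans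
      ((ac_pt X.V h _ _).trans (congrArg _ e.symm))

theorem phiOk_sg (hu : EqvG K X 0 u) (hf : IsFree u) : PhiOk H X (Sg (K.fix H))
    fun n x => (sgD u).app _ (OnePoint.map (fi H K n) x) := fun n => by
  obtain ⟨W, hW⟩ := free_homeo hf (Nat.card H * n)
  refine ⟨?_, rfl, fun x => ?_, fun m f h hh y => ?_⟩
  · have e : W ∘ OnePoint.map (fi H K n) =
        fun x => (sgD u).app _ (OnePoint.map (fi H K n) x) := funext fun x => hW _
    exact Eq.mp (congrArg IsEmbedding e) (W.isEmbedding.comp (isEmbedding_fi H K n))
  · obtain ⟨z, rfl⟩ := W.surjective x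
    refine Iff.trans ?_ ((mem_fi H K n z).trans (forall_congr' fun g => ?_))
    · exact exists_congr fun y => by
        change (sgD u).app _ _ = _ ↔ _
        rw [← hW, W.injective.eq_iff]
    · have e : X.V.ac (act g n) ((X.ρ g).app _ (W z)) =
          W (OnePoint.map (fun p => ((g : G) • p.1, ap (act g n) p.2)) z) := by
        rw [hW, hW]
        exact act_sgD hu g _ z
      rw [forall_isAct (P := fun h => X.V.ac h ((X.ρ g).app _ (W z)) = W z), e,
        W.injective.eq_iff]
  · refine Eq.trans (congrArg ((sgD u).app _) ?_) (((sgD u).ok _).2.2 _ h _)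
    induction y using OnePoint.rec with
    | infty => rfl
    | coe y => exact congrArg OnePoint.some (Prod.ext rfl (hh fun i _ => y.2 i).symm)

/-- **Row P3.** -/
theorem p3 (G : Type) [Group G] [Finite G] : P3 G := fun H P K X u hu hf => by
  obtain ⟨φ, hφ⟩ := phi_iso (phiOk_sg H hu hf) (P.ok X)
  refine ⟨post (sgU _) φ.hom, free_of_iso (isFree_sgU _) φ, fun x => (hφ 0 _).trans ?_⟩
  induction x using OnePoint.rec with
  | infty => exact u.based.symm
  | coe x => exact ac_zero X.V _ _

end Vale.Agent.P241GP
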