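import Vale.Agent.P241GP.Emb
import Vale.Agent.P241GR.D

/-!
# Row P1: existence and uniqueness of geometric fixed points
-/

open CategoryTheory Topology OnePoint Matrix Filter

noncomputable section

namespace Vale.Agent.P241GP

open P251.St P251CX P241GX P241GR

/-! ### Point-set lemmas -/

/-- In a weak Hausdorff space, two maps out of a compact Hausdorff space agree on a closed set. -/
theorem wh_eq {Z : Type} [TopologicalSpace Z]
    (hZ : ∀ (A : Type) [TopologicalSpace A] [CompactSpace A] [T2Space A] (g : A → Z),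
      Continuous g → IsClosed (Set.range g))
    {K : Type} [TopologicalSpace K] [CompactSpace K] [T2Space K] {f g : K → Z}
    (hf : Continuous f) (hg : Continuous g) : IsClosed {k | f k = g k} := by
  rw [← isOpen_compl_iff, isOpen_iff_mem_nhds]
  intro a ha
  have h1 : IsClosed ({g a} : Set Z) := by
    simpa using hZ Unit (fun _ => g a) continuous_const
  obtain ⟨V, hV, hVc, hVU⟩ := exists_mem_nhds_isClosed_subset
    ((h1.isOpen_compl.preimage hf).mem_nhds (show a ∈ f ⁻¹' {g a}ᶜ from ha))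
  have : CompactSpace V := isCompact_iff_compactSpace.1 hVc.isCompact
  have h2 := hZ V (fun v => f v.1) (hf.comp continuous_subtype_val)
  have h3 : g ⁻¹' (Set.range fun v : V => f v.1)ᶜ ∈ 𝓝 a :=
    (h2.isOpen_compl.preimage hg).mem_nhds (by
      rintro ⟨v, hv⟩
      exact hVU v.2 hv)
  filter_upwards [hV, h3] with b hb hb' e
  exact hb' ⟨⟨b, hb⟩, e⟩

theorem isClosed_fix (X : OSp) (n : ℕ) {f : X.sp n → X.sp n} (hf : Continuous f) :
    IsClosed {x | f x = x} :=
  have := X.cg n
  CompactlyGeneratedSpace.isClosed' fun _ _ _ _ _ hu => wh_eq (X.wh n) (hf.comp hu) hu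

/-- A closed subspace of a compactly generated space is compactly generated. -/
theorem cg_closed {Z : Type} [TopologicalSpace Z] [CompactlyGeneratedSpace Z] {S : Set Z}
    (hS : IsClosed S) : CompactlyGeneratedSpace S := by
  refine compactlyGeneratedSpace_of_isClosed fun T hT => ?_
  rw [hS.isClosedEmbedding_subtypeVal.isClosed_iff_image_isClosed]
  refine CompactlyGeneratedSpace.isClosed' fun K _ _ _ u hu => ?_
  have hc : IsClosed (u ⁻¹' S) := hS.preimage hu
  have : CompactSpace (u ⁻¹' S) := isCompact_iff_compactSpace.1 hc.isCompact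
  have h := hc.isClosedMap_subtype_val _ (hT (u ⁻¹' S) (fun k => ⟨u k.1, k.2⟩)
    ((hu.comp continuous_subtype_val).subtype_mk _))
  convert h using 1
  ext k
  constructor
  · rintro ⟨x, hx, e⟩
    have hk : u k ∈ S := e ▸ x.2
    have e' : x = (⟨u k, hk⟩ : S) := Subtype.ext e
    subst e'
    exact ⟨⟨k, hk⟩, hx, rfl⟩
  · rintro ⟨k, hk, rfl⟩
    exact ⟨_, hk, rfl⟩

/-- Factorisation through an embedding. -/
theorem ex_lift {A B Z : Type} [TopologicalSpace A] [TopologicalSpace B] [TopologicalSpace Z]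
    {e : A → Z} {e' : B → Z} (he : Continuous e) (he' : IsEmbedding e')
    (h : ∀ a, e a ∈ Set.range e') : ∃ f : A → B, Continuous f ∧ ∀ a, e' (f a) = e a := by
  choose f hf using h
  exact ⟨f, he'.continuous_iff.2 (he.congr fun a => (hf a).symm), hf⟩

/-- Two embeddings with the same range differ by a homeomorphism. -/
theorem ex_homeo {A B Z : Type} [TopologicalSpace A] [TopologicalSpace B] [TopologicalSpace Z]
    {e : A → Z} {e' : B → Z} (he : IsEmbedding e) (he' : IsEmbedding e')
    (h : ∀ x, x ∈ Set.range e ↔ x ∈ Set.range e') : ∃ f : A ≃ₜ B, ∀ a, e' (f a) = e a := by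
  obtain ⟨f, hf, hf'⟩ := ex_lift he.continuous he' fun a => (h _).1 ⟨a, rfl⟩
  obtain ⟨g, hg, hg'⟩ := ex_lift he'.continuous he fun a => (h _).2 ⟨a, rfl⟩
  exact ⟨⟨⟨f, g, fun a => he.injective (by rw [hg', hf']),
    fun b => he'.injective (by rw [hf', hg'])⟩, hf, hg⟩, hf'⟩

theorem mor_ext {X Y : OSp} {f g : Mor X Y} (h : ∀ n x, f.app n x = g.app n x) : f = g := by
  cases f
  cases g
  congr
  exact funext₂ h

/-- An isomorphism from levelwise homeomorphisms. -/
def isoOf {X Y : OSp} (e : ∀ n, X.sp n ≃ₜ Y.sp n) (hb : ∀ n, e n (X.bp n) = Y.bp n)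
    (ha : ∀ m n (f : Emb m n) x, e n (X.ac f x) = Y.ac f (e m x)) : X ≅ Y where
  hom := ⟨fun n => e n, fun n => ⟨(e n).continuous, hb n, fun m => ha m n⟩⟩
  inv := ⟨fun n => (e n).symm, fun n => ⟨(e n).symm.continuous,
    (e n).injective (by rw [Homeomorph.apply_symm_apply, hb]), fun m f y =>
      (e n).injective (by rw [ha, Homeomorph.apply_symm_apply, Homeomorph.apply_symm_apply])⟩⟩
  hom_inv_id := mor_ext fun n x => (e n).symm_apply_apply x
  inv_hom_id := mor_ext fun n x => (e n).apply_symm_apply x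

/-! ### The diagonal pairs -/

section dg

variable {G : Type} [Finite G] {k m n : ℕ}

/-- the diagonal pair -/
def dg (G : Type) [Finite G] (f : Emb m n) : Emb (Nat.card G * m) (Nat.card G * n) :=
  (ex_dg G f).choose

theorem ap_dg (f : Emb m n) (s : Fin m → G → ℝ) :
    ap (dg G f) (cd s) = cd fun i k => ap f (fun l => s l k) i := (ex_dg G f).choose_spec s

theorem eq_dg {f : Emb m n} {h : Emb (Nat.card G * m) (Nat.card G * n)}
    (hh : ∀ s, ap h (cd s) = cd fun i (k : G) => ap f (fun l => s l k) i) : h = dg G f :=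
  emb_ext_cd fun s => (hh s).trans (ap_dg f s).symm

theorem continuous_dg : Continuous (dg G : Emb m n → _) :=
  continuous_emb fun z => by
    obtain ⟨s, rfl⟩ := cd_surj z
    simp only [ap_dg]
    exact continuous_cd.comp (continuous_pi fun i => continuous_pi fun k =>
      (continuous_apply i).comp (continuous_ap _))

theorem continuous_dgO [Nonempty G] : Continuous (OnePoint.map (dg G : Emb m n → _)) := by
  have := Fintype.ofFinite G
  refine continuous_mapE continuous_dg fun f => ?_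
  rw [← cd_zero, ap_dg, dot_cd']
  exact Finset.single_le_sum (f := fun _ : G => ap f 0 ⬝ᵥ ap f 0)
    (fun _ _ => P251CJ.dot_nonneg _) (Finset.mem_univ (Classical.arbitrary G))

variable [Group G]

theorem act_dg (g : G) (f : Emb m n) (z) :
    ap (act g n) (ap (dg G f) z) = ap (dg G f) (ap (act g m) z) := by
  obtain ⟨s, rfl⟩ := cd_surj z
  rw [ap_dg, ap_act, ap_act, ap_dg]
  rfl

end dg

/-! ### The construction -/

variable {G : Type} [Group G] [Finite G] (H : Subgroup G) (X : Action OSp G)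

/-- the fixed points -/
def Fx (n : ℕ) : Set (X.V.sp (Nat.card H * n)) :=
  {x | ∀ g : H, X.V.ac (act g n) ((X.ρ g).app _ x) = x}

theorem isClosed_Fx (n : ℕ) : IsClosed (Fx H X n) := by
  simp only [Fx, Set.ofPred_forall]
  exact isClosed_iInter fun g =>
    isClosed_fix X.V _ ((continuous_ac _ _).comp ((X.ρ g).ok _).1)

theorem bp_mem (n : ℕ) : X.V.bp _ ∈ Fx H X n := fun g => by
  rw [((X.ρ g).ok _).2.1, X.V.ac_bp]

variable {H X} in
theorem ac_mem {m n : ℕ} (f : Emb m n) {x} (hx : x ∈ Fx H X m) :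
    X.V.ac (dg H f) x ∈ Fx H X n := fun g => by
  rw [((X.ρ g).ok _).2.2, ac_ac X.V (act_dg g f), hx g]

/-- The geometric fixed points. -/
def Phi : OSp where
  sp n := Fx H X n
  cg n := have := X.V.cg (Nat.card H * n); cg_closed (isClosed_Fx H X n)
  wh n A _ _ _ g hg := by
    have h := (X.V.wh _ A _ (continuous_subtype_val.comp hg)).preimage
      (continuous_subtype_val (p := fun x => x ∈ Fx H X n))
    rwa [Set.range_comp, Set.preimage_image_eq _ Subtype.val_injective] at h
  bp n := ⟨_, bp_mem H X n⟩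
  ac f x := ⟨_, ac_mem f x.2⟩
  cont m n := by
    refine IsEmbedding.subtypeVal.continuous_iff.2 (((X.V.cont _ _).comp
      (continuous_dgO.prodMap continuous_subtype_val)).congr ?_)
    rintro ⟨f, x⟩
    induction f using OnePoint.rec <;> rfl
  ac_bp m n f := Subtype.ext (X.V.ac_bp _ _ _)
  ac_id n f hf x := Subtype.ext (X.V.ac_id _ _ (fun z => by
    obtain ⟨s, rfl⟩ := cd_surj z
    simp only [ap_dg, hf]) _)
  ac_comp k m n f g h hh x := Subtype.ext (X.V.ac_comp _ _ _ _ _ _ (fun z => by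
    obtain ⟨s, rfl⟩ := cd_surj z
    simp only [ap_dg, hh]) _)

theorem phiOk : PhiOk H X (Phi H X) fun _ => Subtype.val := fun n =>
  ⟨IsEmbedding.subtypeVal, rfl, fun x =>
    (Set.ext_iff.1 (Subtype.range_val (s := Fx H X n)) x).trans
      (forall_congr' fun g => (forall_isAct
        (P := fun h => X.V.ac h ((X.ρ g).app _ x) = x)).symm), fun m f h hh y => by
    rw [eq_dg hh]
    rfl⟩

variable {X} in
theorem map_mem {Y : Action OSp G} (f : X ⟶ Y) {n : ℕ} {x} (hx : x ∈ Fx H X n) :
    f.hom.app _ x ∈ Fx H Y n := fun g => by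
  have h : ∀ y, f.hom.app (Nat.card H * n) ((X.ρ g).app _ y) = (Y.ρ g).app _ (f.hom.app _ y) :=
    fun y => congrArg (fun φ : Mor X.V Y.V => φ.app _ y) (f.comm g)
  rw [← h, ← (f.hom.ok _).2.2, hx g]

/-- The geometric fixed point functor. -/
def PhiFun : Action OSp G ⥤ OSp where
  obj := Phi H
  map f := ⟨fun _ x => ⟨_, map_mem H f x.2⟩, fun _ =>
    ⟨((f.hom.ok _).1.comp continuous_subtype_val).subtype_mk _, Subtype.ext (f.hom.ok _).2.1,
      fun _ _ _ => Subtype.ext ((f.hom.ok _).2.2 _ _ _)⟩⟩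
  map_id _ := rfl
  map_comp _ _ := rfl

/-- The geometric fixed point functor with its inclusions. -/
def phiF : PhiF H := ⟨PhiFun H, fun _ _ => Subtype.val, phiOk H, fun _ _ _ => rfl⟩

variable {H X} in
/-- Uniqueness, compatibly with the inclusions. -/
theorem phi_iso {Y Y' : OSp} {e e'} (h : PhiOk H X Y e) (h' : PhiOk H X Y' e') :
    ∃ φ : Y ≅ Y', ∀ n y, e' n (φ.hom.app n y) = e n y := by
  choose φ hφ using fun n => ex_homeo (h n).1 (h' n).1 fun x =>
    ((h n).2.2.1 x).trans ((h' n).2.2.1 x).symm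
  refine ⟨isoOf φ (fun n => (h' n).1.injective ?_) fun m n f x => (h' n).1.injective ?_, hφ⟩
  · rw [hφ, (h n).2.1, (h' n).2.1]
  · rw [hφ, (h n).2.2.2 m f _ (ap_dg f), (h' n).2.2.2 m f _ (ap_dg f), hφ]

/-- **Row P1.** -/
theorem p1 (G : Type) [Group G] [Finite G] : P1 G := fun H =>
  ⟨⟨phiF H⟩, fun _ _ _ ⟨_, h⟩ ⟨_, h'⟩ => ⟨(phi_iso h h').choose⟩⟩

end Vale.Agent.P241GP
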