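import Vale.Agent.P241GX.St
import Vale.Agent.P251CJ.Pair
import Mathlib.Topology.Maps.Proper.CompactlyGenerated

/-!
# A toolkit for the pairs `Emb m n` and the coordinates `cd` of the regular representation
-/

open Topology OnePoint Matrix Filter

noncomputable section

namespace Vale.Agent.P241GP

open P251CX P241GX

variable {k m n p m' n' : ℕ}

/-! ### General facts -/

theorem emb_ext {f g : Emb m n} (h : ∀ s, ap f s = ap g s) : f = g := P251CJ.JP.ext h

theorem ap_dot (f : Emb m n) (x y : Fin m → ℝ) :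
    ap f x ⬝ᵥ ap f y = x ⬝ᵥ y + ap f 0 ⬝ᵥ ap f 0 := P251CJ.ap_dot f x y

/-- A map which preserves inner products up to a constant is given by a pair. -/
theorem ex_ap (g : (Fin m → ℝ) → Fin n → ℝ) (c : ℝ) (h : ∀ x y, g x ⬝ᵥ g y = x ⬝ᵥ y + c) :
    ∃ f : Emb m n, ∀ x, ap f x = g x := P251CJ.exists_ap g c h

theorem ap_inj (f : Emb m n) : Function.Injective (ap f) := fun x y h => by
  have h1 := ap_dot f x x
  have h2 := ap_dot f x y
  have h3 := ap_dot f y y
  rw [h] at h1 h2
  have h4 : (x - y) ⬝ᵥ (x - y) = 0 := by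
    rw [sub_dotProduct, dotProduct_sub, dotProduct_sub, dotProduct_comm y x]
    linarith
  exact sub_eq_zero.1 (dotProduct_self_eq_zero.1 h4)

theorem ex_id (m : ℕ) : ∃ f : Emb m m, ∀ s, ap f s = s := P251CJ.exists_ap_id m

theorem ex_comp (f : Emb k m) (g : Emb m n) : ∃ h : Emb k n, ∀ s, ap h s = ap g (ap f s) :=
  P251CJ.exists_ap_comp f g

theorem ex_sum (f : Emb m n) (g : Emb m' n') : ∃ h : Emb (m + m') (n + n'),
    ∀ s t, ap h (Fin.append s t) = Fin.append (ap f s) (ap g t) := P251CJ.exists_ap_sum f g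

/-- the block sum with an identity -/
theorem ex_sumL (r : ℕ) (g : Emb m n) : ∃ h : Emb (r + m) (r + n),
    ∀ s t, ap h (Fin.append s t) = Fin.append s (ap g t) := by
  obtain ⟨f, hf⟩ := ex_id r
  obtain ⟨h, hh⟩ := ex_sum f g
  exact ⟨h, fun s t => by rw [hh, hf]⟩

/-- the block sum with an identity -/
theorem ex_sumR (f : Emb m n) (r : ℕ) : ∃ h : Emb (m + r) (n + r),
    ∀ s t, ap h (Fin.append s t) = Fin.append (ap f s) t := by
  obtain ⟨g, hg⟩ := ex_id r
  obtain ⟨h, hh⟩ := ex_sum f g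
  exact ⟨h, fun s t => by rw [hh, hg]⟩

theorem ex_appR (m : ℕ) (t : Fin k → ℝ) : ∃ h : Emb m (m + k), ∀ s, ap h s = Fin.append s t :=
  P251CJ.exists_ap_app m t

theorem dot_append (x y : Fin m → ℝ) (x' y' : Fin n → ℝ) :
    Fin.append x x' ⬝ᵥ Fin.append y y' = x ⬝ᵥ y + x' ⬝ᵥ y' := P251CJ.dot_append x y x' y'

theorem ex_appL (t : Fin k → ℝ) (m : ℕ) : ∃ h : Emb m (k + m), ∀ s, ap h s = Fin.append t s :=
  ex_ap _ (t ⬝ᵥ t) fun x y => by rw [dot_append, add_comm]

theorem ex_pt (v : Fin n → ℝ) : ∃ h : Emb 0 n, ∀ s, ap h s = v := P251CJ.exists_ap_pt v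

theorem ex_cons (t : ℝ) (n : ℕ) : ∃ h : Emb n n.succ, ∀ s, ap h s = vecCons t s :=
  ex_ap _ (t * t) fun x y => by rw [cons_dotProduct_cons, add_comm]

/-- coordinate permutations -/
theorem ex_perm (σ : Fin n ≃ Fin m) : ∃ h : Emb m n, ∀ s, ap h s = s ∘ σ :=
  ex_ap _ 0 fun x y => by rw [comp_equiv_dotProduct_comp_equiv, add_zero]

theorem ex_cast (e : m = n) : ∃ h : Emb m n, ∀ s, ap h s = s ∘ Fin.cast e.symm :=
  ex_perm (finCongr e.symm)

theorem ex_swap (m n : ℕ) : ∃ h : Emb (m + n) (n + m),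
    ∀ s t, ap h (Fin.append s t) = Fin.append t s := by
  obtain ⟨h, hh⟩ := ex_ap (m := m + n) (n := n + m)
    (fun z => Fin.append (fun i => z (Fin.natAdd m i)) fun i => z (Fin.castAdd n i)) 0
    fun x y => by
      obtain ⟨x, x', rfl⟩ := P251CJ.exists_append x
      obtain ⟨y, y', rfl⟩ := P251CJ.exists_append y
      simp only [Fin.append_left, Fin.append_right, dot_append]
      ring
  exact ⟨h, fun s t => by simp only [hh, Fin.append_left, Fin.append_right]⟩

/-- An isometric bijection and its inverse are given by pairs. -/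
theorem ex_equiv (L : (Fin m → ℝ) ≃ (Fin n → ℝ)) (h : ∀ x y, L x ⬝ᵥ L y = x ⬝ᵥ y) :
    ∃ (f : Emb m n) (g : Emb n m), (∀ x, ap f x = L x) ∧ ∀ y, ap g y = L.symm y := by
  obtain ⟨f, hf⟩ := ex_ap L 0 fun x y => by rw [h, add_zero]
  obtain ⟨g, hg⟩ := ex_ap L.symm 0 fun x y => by
    rw [← h, L.apply_symm_apply, L.apply_symm_apply, add_zero]
  exact ⟨f, g, hf, hg⟩

theorem ex_append (z : Fin (m + n) → ℝ) : ∃ s t, z = Fin.append s t := P251CJ.exists_append z

/-! ### The action on a spectrum -/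

theorem ac_ac (X : OSp) {f : Emb k m} {g : Emb m n} {f' : Emb k p} {g' : Emb p n}
    (h : ∀ s, ap g (ap f s) = ap g' (ap f' s)) (x : X.sp k) :
    X.ac g (X.ac f x) = X.ac g' (X.ac f' x) := by
  obtain ⟨c, hc⟩ := ex_comp f g
  rw [← X.ac_comp _ _ _ f g c hc, X.ac_comp _ _ _ f' g' c fun s => (hc s).trans (h s)]

theorem ac_ac_id (X : OSp) {f : Emb k m} {g : Emb m k} (h : ∀ s, ap g (ap f s) = s)
    (x : X.sp k) : X.ac g (X.ac f x) = x := by
  obtain ⟨c, hc⟩ := ex_comp f g
  rw [← X.ac_comp _ _ _ f g c hc, X.ac_id _ c fun s => (hc s).trans (h s)]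

theorem ac_zero (X : OSp) (f : Emb 0 0) (x : X.sp 0) : X.ac f x = x :=
  X.ac_id 0 f (fun _ => Subsingleton.elim _ _) x

theorem continuous_ac₂ (X : OSp) : Continuous fun q : Emb m n × X.sp m => X.ac q.1 q.2 :=
  (X.cont m n).comp ((OnePoint.continuous_coe.comp continuous_fst).prodMk continuous_snd)

theorem continuous_ac (X : OSp) (f : Emb m n) : Continuous (X.ac f) :=
  (continuous_ac₂ X).comp (continuous_const.prodMk continuous_id)

/-- the homeomorphism given by an invertible pair -/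
def acH (X : OSp) (f : Emb m n) (g : Emb n m) (h : ∀ s, ap g (ap f s) = s)
    (h' : ∀ s, ap f (ap g s) = s) : X.sp m ≃ₜ X.sp n where
  toFun := X.ac f
  invFun := X.ac g
  left_inv := ac_ac_id X h
  right_inv := ac_ac_id X h'
  continuous_toFun := continuous_ac X f
  continuous_invFun := continuous_ac X g

/-! ### Topology of the space of pairs -/

theorem lc_emb (m n : ℕ) : LocallyCompactSpace (Emb m n) :=
  inferInstanceAs (LocallyCompactSpace (P251CJ.JP m n))

theorem continuous_ap₂ : Continuous fun q : Emb m n × (Fin m → ℝ) => ap q.1 q.2 :=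
  P251CJ.continuous_ev.comp
    (((P251CJ.pj m n).continuous.comp continuous_fst).prodMk continuous_snd)

theorem continuous_ap (s : Fin m → ℝ) : Continuous fun f : Emb m n => ap f s :=
  continuous_ap₂.comp (continuous_id.prodMk continuous_const)

theorem continuous_ap' (f : Emb m n) : Continuous (ap f) :=
  continuous_ap₂.comp (continuous_const.prodMk continuous_id)

/-- Continuity of a family of pairs may be checked pointwise. -/
theorem continuous_emb {K : Type} [TopologicalSpace K] {w : K → Emb m n}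
    (h : ∀ s, Continuous fun x => ap (w x) s) : Continuous w :=
  (P251CJ.pj m n).comp_continuous_iff.1
    (Continuous.subtype_mk (continuous_pi h) _)

theorem isProperMap_ap : IsProperMap fun q : Emb m n × (Fin m → ℝ) => ap q.1 q.2 := by
  have h : IsProperMap fun q : P251CJ.J m n × P251CJ.E m => q.1.1 q.2 :=
    isProperMap_iff_tendsto_cocompact.2 ⟨P251CJ.continuous_ev, P251CJ.tendsto_ev⟩
  exact h.comp ((P251CJ.pj m n).prodCongr (Homeomorph.refl _)).isProperMap

/-- A family of pairs over a space with a proper map to `ℝ` bounded by the offsets is proper. -/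
theorem continuous_mapO {K : Type} [TopologicalSpace K] [T2Space K] {w : K → Emb m n}
    (hw : Continuous w) (hK : ∀ r : ℝ, IsCompact {x | ap (w x) 0 ⬝ᵥ ap (w x) 0 ≤ r}) :
    Continuous (OnePoint.map w) := by
  refine OnePoint.continuous_map hw ?_
  rw [coclosedCompact_eq_cocompact, coclosedCompact_eq_cocompact,
    hasBasis_cocompact.tendsto_right_iff]
  intro C hC
  obtain ⟨r, hr⟩ := (hC.image (f := fun f : Emb m n => ap f 0 ⬝ᵥ ap f 0)
    ((continuous_ap 0).dotProduct (continuous_ap 0))).bddAbove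
  filter_upwards [(hK r).compl_mem_cocompact] with x hx hxC
  exact hx (hr ⟨_, hxC, rfl⟩)

theorem isCompact_emb (r : ℝ) : IsCompact {f : Emb m n | ap f 0 ⬝ᵥ ap f 0 ≤ r} := by
  have h := (P251CJ.pj m n).isClosedEmbedding.isCompact_preimage
    (P251CJ.isCompact_J (n := m) (m := n) (1 + r))
  refine h.of_isClosed_subset
    (isClosed_le ((continuous_ap 0).dotProduct (continuous_ap 0)) continuous_const) ?_
  intro f hf
  exact P251CJ.abs_le_of_dot hf

theorem isCompact_dot (r : ℝ) : IsCompact {x : Fin n → ℝ | x ⬝ᵥ x ≤ r} :=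
  (P251CJ.isCompact_box (Fin n) (1 + r)).of_isClosed_subset
    (isClosed_le (continuous_id.dotProduct continuous_id) continuous_const)
    fun _ hx => P251CJ.abs_le_of_dot hx

/-- A continuous map of spaces of pairs which does not decrease the offsets is proper. -/
theorem continuous_mapE {w : Emb m n → Emb m' n'} (hw : Continuous w)
    (h : ∀ f, ap f 0 ⬝ᵥ ap f 0 ≤ ap (w f) 0 ⬝ᵥ ap (w f) 0) : Continuous (OnePoint.map w) :=
  continuous_mapO hw fun r => (isCompact_emb r).of_isClosed_subset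
    (isClosed_le (((continuous_ap 0).comp hw).dotProduct ((continuous_ap 0).comp hw))
      continuous_const) fun f hf => (h f).trans hf

/-! ### The regular representation -/

variable {G : Type} [Finite G] {a b : ℕ}

/-- the index bijection behind `cd` -/
def ix (G : Type) [Finite G] (a : ℕ) : Fin (Nat.card G * a) ≃ Fin a × G :=
  finProdFinEquiv.symm.trans
    (((Finite.equivFin G).symm.prodCongr (Equiv.refl _)).trans (Equiv.prodComm _ _))

theorem cd_apply (s : Fin a → G → ℝ) (i) : cd s i = s (ix G a i).1 (ix G a i).2 := rfl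

/-- the inverse of `cd` -/
def dc (z : Fin (Nat.card G * a) → ℝ) (i : Fin a) (k : G) : ℝ := z ((ix G a).symm (i, k))

@[simp] theorem cd_dc (z : Fin (Nat.card G * a) → ℝ) : cd (dc z) = z := funext fun i => by
  rw [cd_apply, dc, Prod.mk.eta, Equiv.symm_apply_apply]

@[simp] theorem dc_cd (s : Fin a → G → ℝ) : dc (cd s) = s := funext₂ fun i k => by
  rw [dc, cd_apply, Equiv.apply_symm_apply]

theorem cd_surj (z : Fin (Nat.card G * a) → ℝ) : ∃ s : Fin a → G → ℝ, z = cd s :=
  ⟨dc z, (cd_dc z).symm⟩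

theorem cd_inj {s t : Fin a → G → ℝ} (h : cd s = cd t) : s = t := by
  rw [← dc_cd s, h, dc_cd]

theorem continuous_cd : Continuous (cd : (Fin a → G → ℝ) → _) :=
  continuous_pi fun _ => (continuous_apply _).comp (continuous_apply _)

theorem continuous_dc : Continuous (dc : _ → Fin a → G → ℝ) :=
  continuous_pi fun _ => continuous_pi fun _ => continuous_apply _

/-- `cd` as a homeomorphism -/
def cdH (G : Type) [Finite G] (a : ℕ) : (Fin a → G → ℝ) ≃ₜ (Fin (Nat.card G * a) → ℝ) :=
  ⟨⟨cd, dc, dc_cd, cd_dc⟩, continuous_cd, continuous_dc⟩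

theorem cd_zero : cd (0 : Fin a → G → ℝ) = 0 := rfl

theorem dot_cd [Fintype G] (s t : Fin a → G → ℝ) :
    cd s ⬝ᵥ cd t = ∑ i, ∑ k, s i k * t i k := by
  rw [← Fintype.sum_prod_type']
  exact Fintype.sum_equiv (ix G a) _ _ fun _ => rfl

theorem dot_cd' [Fintype G] (s t : Fin a → G → ℝ) :
    cd s ⬝ᵥ cd t = ∑ k, (fun i => s i k) ⬝ᵥ fun i => t i k := by
  rw [dot_cd, Finset.sum_comm]
  rfl

/-- pairs in the coordinates of regular representations -/
theorem ex_cd {G' : Type} [Finite G'] (F : (Fin a → G → ℝ) → Fin b → G' → ℝ) (c : ℝ)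
    (h : ∀ s t, cd (F s) ⬝ᵥ cd (F t) = cd s ⬝ᵥ cd t + c) :
    ∃ f : Emb (Nat.card G * a) (Nat.card G' * b), ∀ s, ap f (cd s) = cd (F s) := by
  obtain ⟨f, hf⟩ := ex_ap (fun z => cd (F (dc z))) c fun x y => by rw [h, cd_dc, cd_dc]
  exact ⟨f, fun s => by rw [hf, dc_cd]⟩

theorem emb_ext_cd {f g : Emb (Nat.card G * a) n} (h : ∀ s, ap f (cd s) = ap g (cd s)) : f = g :=
  emb_ext fun z => by
    obtain ⟨s, rfl⟩ := cd_surj z
    exact h s

/-- the diagonal pair -/
theorem ex_dg (G : Type) [Finite G] (f : Emb m n) : ∃ h : Emb (Nat.card G * m) (Nat.card G * n),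
    ∀ s, ap h (cd s) = cd fun i (k : G) => ap f (fun l => s l k) i := by
  have := Fintype.ofFinite G
  refine ex_cd _ (∑ _ : G, ap f 0 ⬝ᵥ ap f 0) fun s t => ?_
  rw [dot_cd', dot_cd', ← Finset.sum_add_distrib]
  exact Finset.sum_congr rfl fun k _ => ap_dot f _ _

/-- a new first copy of the regular representation -/
theorem ex_consG (v : G → ℝ) (a : ℕ) : ∃ h : Emb (Nat.card G * a) (Nat.card G * (a + 1)),
    ∀ s, ap h (cd s) = cd (vecCons v s) := by
  have := Fintype.ofFinite G
  refine ex_cd _ (∑ k, v k * v k) fun s t => ?_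
  rw [dot_cd, dot_cd, Fin.sum_univ_succ, add_comm]
  rfl

theorem dot_cd_append (s s' : Fin a → G → ℝ) (t t' : Fin b → G → ℝ) :
    cd (Fin.append s t) ⬝ᵥ cd (Fin.append s' t') = cd s ⬝ᵥ cd s' + cd t ⬝ᵥ cd t' := by
  have := Fintype.ofFinite G
  simp only [dot_cd, Fin.sum_univ_add, Fin.append_left, Fin.append_right]

theorem ex_append' {α : Type} (z : Fin (a + b) → α) : ∃ s t, z = Fin.append s t :=
  ⟨_, _, Fin.append_castAdd_natAdd.symm⟩

theorem append_apply {α β : Type} (s : Fin a → α → β) (t : Fin b → α → β) (x : α) :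
    (fun l => Fin.append s t l x) = Fin.append (fun l => s l x) fun l => t l x := by
  funext l
  refine Fin.addCases (fun l => ?_) (fun l => ?_) l
  · simp only [Fin.append_left]
  · simp only [Fin.append_right]

/-- `a ρ ⊕ b ρ = (a + b) ρ` -/
theorem ex_join (G : Type) [Finite G] (a b : ℕ) :
    ∃ (f : Emb (Nat.card G * a + Nat.card G * b) (Nat.card G * (a + b)))
      (g : Emb (Nat.card G * (a + b)) (Nat.card G * a + Nat.card G * b)),
      (∀ (s : Fin a → G → ℝ) t, ap f (Fin.append (cd s) (cd t)) = cd (Fin.append s t)) ∧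
        ∀ (s : Fin a → G → ℝ) t, ap g (cd (Fin.append s t)) = Fin.append (cd s) (cd t) := by
  obtain ⟨f, hf⟩ := ex_ap (m := Nat.card G * a + Nat.card G * b) (fun z =>
    cd (Fin.append (dc (G := G) fun i => z (Fin.castAdd _ i)) (dc fun i => z (Fin.natAdd _ i)))) 0
    fun x y => by
      obtain ⟨x, x', rfl⟩ := ex_append x
      obtain ⟨y, y', rfl⟩ := ex_append y
      simp only [Fin.append_left, Fin.append_right, dot_cd_append, cd_dc, dot_append, add_zero]
  obtain ⟨g, hg⟩ := ex_ap (m := Nat.card G * (a + b)) (fun z =>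
    Fin.append (cd fun i => dc (G := G) z (Fin.castAdd _ i)) (cd fun i => dc z (Fin.natAdd _ i))) 0
    fun x y => by
      obtain ⟨x, rfl⟩ := cd_surj x
      obtain ⟨y, rfl⟩ := cd_surj y
      obtain ⟨x, x', rfl⟩ := ex_append' x
      obtain ⟨y, y', rfl⟩ := ex_append' y
      simp only [dc_cd, Fin.append_left, Fin.append_right, dot_cd_append, dot_append, add_zero]
  exact ⟨f, g, fun s t => by simp only [hf, Fin.append_left, Fin.append_right, dc_cd],
    fun s t => by simp only [hg, dc_cd, Fin.append_left, Fin.append_right]⟩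

variable [Group G]

omit [Finite G] in
theorem tw_one (s : Fin a → G → ℝ) : tw 1 s = s := funext₂ fun i k => by
  rw [tw, inv_one, one_mul]

omit [Finite G] in
theorem tw_mul (g h : G) (s : Fin a → G → ℝ) : tw (g * h) s = tw g (tw h s) :=
  funext₂ fun i k => by rw [tw, tw, tw, _root_.mul_inv_rev, mul_assoc]

theorem dot_tw (g : G) (s t : Fin a → G → ℝ) : cd (tw g s) ⬝ᵥ cd (tw g t) = cd s ⬝ᵥ cd t := by
  have := Fintype.ofFinite G
  rw [dot_cd, dot_cd]
  exact Finset.sum_congr rfl fun i _ =>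
    Fintype.sum_equiv (Equiv.mulLeft g⁻¹) _ _ fun _ => rfl

theorem ex_act (g : G) (a : ℕ) : ∃ h : Emb (Nat.card G * a) (Nat.card G * a), IsAct g h :=
  ex_cd (tw g) 0 fun s t => by rw [dot_tw, add_zero]

/-- the action of `g` on `a ρ` -/
def act (g : G) (a : ℕ) : Emb (Nat.card G * a) (Nat.card G * a) := (ex_act g a).choose

theorem isAct_act (g : G) (a : ℕ) : IsAct g (act g a) := (ex_act g a).choose_spec

theorem ap_act (g : G) (s : Fin a → G → ℝ) : ap (act g a) (cd s) = cd (tw g s) := isAct_act g a s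

theorem IsAct.eq {g : G} {h : Emb (Nat.card G * a) (Nat.card G * a)} (hh : IsAct g h) :
    h = act g a := emb_ext_cd fun s => (hh s).trans (ap_act g s).symm

theorem forall_isAct {g : G} {P : Emb (Nat.card G * a) (Nat.card G * a) → Prop} :
    (∀ h, IsAct g h → P h) ↔ P (act g a) :=
  ⟨fun H => H _ (isAct_act g a), fun H _ hh => IsAct.eq hh ▸ H⟩

/-- the action on the first block -/
theorem ex_actL (g : G) (a n : ℕ) : ∃ h : Emb (Nat.card G * a + n) (Nat.card G * a + n),
    ∀ s t, ap h (Fin.append (cd s) t) = Fin.append (cd (tw g s)) t := by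
  obtain ⟨h, hh⟩ := ex_sumR (act g a) n
  exact ⟨h, fun s t => by rw [hh, ap_act]⟩

end Vale.Agent.P241GP
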