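import Vale.Agent.P241GP.P1
import Vale.Agent.P241GD.A2
import Vale.Agent.P241GF.C5
import Vale.Agent.P241GF.G1b
import Vale.Agent.P241GG.Main
import Vale.Agent.P241GQ.P2

/-!
# P241G: the `K`-homology of the geometric fixed points as a functor on the homotopy category
-/

open CategoryTheory MonoidalCategory Limits

noncomputable section

namespace Vale.Agent.P241GP

open P251.H hiding IsCpt
open P251.St P251CX P241.St P241GX P241GA P241GA.GIn P241GR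
open P251.H.GS.StabInput
open P251.S (IsCpt)
open P241Y (PLocal)
open P241L (fg Rg)

universe v' u u'

section

variable {C : Type u'} [Category.{v'} C] [Preadditive C] {p : ℕ} {W X X' Y Y' : C}

theorem sIso_of_isIso (l : X ⟶ Y) [IsIso l] : SIso p W l :=
  ⟨fun y => ⟨1, y ≫ inv l, Nat.coprime_one_left p, by simp⟩,
    fun x hx => ⟨1, Nat.coprime_one_left p, by
      rw [one_smul, ← cancel_mono l, hx, zero_comp]⟩⟩

theorem sIso_comp {l : X ⟶ Y} (h : SIso p W l) (a : X' ⟶ X) (b : Y ⟶ Y') [IsIso a] [IsIso b] :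
    SIso p W (a ≫ l ≫ b) := by
  refine ⟨fun y => ?_, fun x hx => ?_⟩
  · obtain ⟨m, x, hm, hx⟩ := h.1 (y ≫ inv b)
    refine ⟨m, x ≫ inv a, hm, ?_⟩
    rw [Category.assoc, IsIso.inv_hom_id_assoc, reassoc_of% hx, Preadditive.nsmul_comp,
      Category.assoc, IsIso.inv_hom_id, Category.comp_id]
  · obtain ⟨m, hm, h0⟩ := h.2 (x ≫ a) (by
      rw [← cancel_mono b, zero_comp, ← hx, Category.assoc, Category.assoc])
    exact ⟨m, hm, by rw [← cancel_mono a, Preadditive.nsmul_comp, h0, zero_comp]⟩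

end

variable {G : Type} [Group G] [Finite G] {V : Subgroup G} {T : SHCat} {S : Susp T}

/-- `K ⊗ Φ^V (-)`. -/
abbrev Th (P : PhiF V) (I : P241L.IsSH (fg T S)) (K : T.C) : Action OSp G ⥤ T.C :=
  P.Φ ⋙ LI I ⋙ tensorLeft K

variable {M : Type u} [Category.{0} M] [MonoidalCategory M]
  [SymmetricCategory M] [MonoidalClosed M] [HasZeroMorphisms M] [HasColimitsOfSize.{0, 0} M]
  [GIn G M] {o : M ⥤ Action OSp G} {p : ℕ}

section

variable {C : Type u'} [Category.{v'} C] (Q : M ⥤ C) [Q.IsLocalization (piW (GG M))]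
  [Preadditive C] [HasCoproducts.{0} C] (c1 : C1 M) (D : Dict o) (P : PhiF V)
  (I : P241L.IsSH (fg T S)) (hp : p.Prime) {K : T.C} (hK : PLocal p K)

include c1 in
theorem cpt_TF (n : ℕ) {X : GSpace G} (hX : GFC G X) : IsCpt (Q.obj ((TF M n).obj (gl X))) :=
  (P241GD.a2 (GG M) Q).cpt (c1.src n X hX) (finFactor_pw M n X)

include c1 D hp hK

/-- **The key step.** -/
theorem key {X Y : M} (f : X ⟶ Y) (h : ∀ W, IsCpt W → SIso p W (Q.map f)) :
    IsIso ((Th P I K).map (o.map f)) := by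
  obtain ⟨h1, h2⟩ := P241GQ.p2 M o D V P p X Y f fun a j =>
    P241GF.c5 c1 (P241GD.a1 (GG M) Q) (P241GD.a2 (GG M) Q) p X Y f a _ (.cell V j)
      (h _ (cpt_TF Q c1 a (P241.H32.gfc_line (.cell V j))))
  exact P241GF.g1b T p hp K hK _ _ _ (P241GG.g1a I p _ _ _ h1 h2)

include Q in
theorem inverts : (piW (GG M)).IsInvertedBy (o ⋙ Th P I K) := fun _ _ f hf =>
  have := Localization.inverts Q (piW (GG M)) f hf
  key Q c1 D P I hp hK f fun _ _ => sIso_of_isIso _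

/-- A functor induced by `Th` inverts the `p`-local equivalences. -/
theorem isIso_psi {Ψ : C ⥤ T.C} (α : Q ⋙ Ψ ≅ o ⋙ Th P I K) {B B' : C} (l : B ⟶ B')
    (h : ∀ W, IsCpt W → SIso p W l) : IsIso (Ψ.map l) := by
  have := Localization.essSurj Q (piW (GG M))
  let a := Q.objObjPreimageIso B
  let b := Q.objObjPreimageIso B'
  obtain ⟨Z, f, s, hs, e⟩ := (P241GD.a1 (GG M) Q).frac _ _ (a.hom ≫ l ≫ b.inv)
  have := Localization.inverts Q (piW (GG M)) s hs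
  have h1 := key Q c1 D P I hp hK f fun W hW => by
    rw [← e, Category.assoc, Category.assoc]
    exact sIso_comp (h W hW) _ _
  have h2 : IsIso (Ψ.map (Q.map f)) := (NatIso.isIso_map_iff α f).2 h1
  rw [← e, Ψ.map_comp, Ψ.map_comp, Ψ.map_comp, isIso_comp_right_iff, isIso_comp_left_iff,
    isIso_comp_right_iff] at h2
  exact h2

/-- The induced functor. -/
theorem psi : ∃ Ψ : C ⥤ T.C, Nonempty (Q ⋙ Ψ ≅ o ⋙ Th P I K) ∧
    ∀ (B B' : C) (l : B ⟶ B'), (∀ W, IsCpt W → SIso p W l) → IsIso (Ψ.map l) :=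
  ⟨_, ⟨Localization.fac _ (inverts Q c1 D P I hp hK) Q⟩, fun _ _ =>
    isIso_psi Q c1 D P I hp hK (Localization.fac _ (inverts Q c1 D P I hp hK) Q)⟩

end

/-- Acyclicity in terms of a chosen geometric fixed point functor. -/
theorem acy_iff_th [Preadditive (Ho G)] (P : PhiF V) (I : P241L.IsSH (fg T S))
    (K : ℕ → Rg (fg T S)) (A : Pl G p) (i : ℕ) :
    Acy V p I K A i ↔ IsZero ((Th P I (K i).ob).obj A.obj.as.obj) := by
  refine ⟨fun h => (IsZero.iff_id_eq_zero _).2 (h _ ⟨_, P.ok _⟩), fun h Y ⟨e, he⟩ => ?_⟩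
  obtain ⟨φ, -⟩ := phi_iso he (P.ok _)
  exact (IsZero.iff_id_eq_zero _).1 (h.of_iso ((LI I ⋙ tensorLeft (K i).ob).mapIso φ))

omit [MonoidalCategory M] [SymmetricCategory M] [MonoidalClosed M] [HasZeroMorphisms M]
  [HasColimitsOfSize.{0, 0} M] [GIn G M] in
/-- Acyclicity in terms of the induced functor. -/
theorem acy_iff [Preadditive (Ho G)] (hs : Function.Surjective o.obj) (P : PhiF V)
    (I : P241L.IsSH (fg T S)) (K : ℕ → Rg (fg T S)) (i : ℕ) {Ψ : Ho G ⥤ T.C}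
    (α : (o ⋙ (eqW G).Q) ⋙ Ψ ≅ o ⋙ Th P I (K i).ob) (A : Pl G p) :
    Acy V p I K A i ↔ IsZero (Ψ.obj A.obj) := by
  rw [acy_iff_th P]
  obtain ⟨⟨⟨Y⟩⟩, hA⟩ := A
  obtain ⟨X, rfl⟩ := hs Y
  exact (α.app X).isZero_iff.symm

/-- **FIN (1).** -/
theorem psi_ho [(o ⋙ (eqW G).Q).IsLocalization (piW (GG M))] [Preadditive (Ho G)]
    [HasCoproducts.{0} (Ho G)] (c1 : C1 M) (D : Dict o) (hs : Function.Surjective o.obj)
    (P : PhiF V) (I : P241L.IsSH (fg T S)) (hp : p.Prime) (K : ℕ → Rg (fg T S)) (i : ℕ)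
    (hK : PLocal (T := T) p (K i).ob) :
    ∃ Ψ : Ho G ⥤ T.C, Nonempty ((o ⋙ (eqW G).Q) ⋙ Ψ ≅ o ⋙ Th P I (K i).ob) ∧
      (∀ (B B' : Ho G) (l : B ⟶ B'), (∀ W, IsCpt W → SIso p W l) → IsIso (Ψ.map l)) ∧
      ∀ A : Pl G p, Acy V p I K A i ↔ IsZero (Ψ.obj A.obj) := by
  obtain ⟨Ψ, ⟨α⟩, h⟩ := psi (o ⋙ (eqW G).Q) c1 D P I hp hK
  exact ⟨Ψ, ⟨α⟩, h, acy_iff hs P I K i α⟩

end Vale.Agent.P241GP
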