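import Vale.Agent.P241GP.P1

/-!
# Row P4: geometric fixed points of the shift
-/

open CategoryTheory Topology OnePoint Matrix Filter

noncomputable section

namespace Vale.Agent.P241GP

open P251.St P251CX P241GX P241GR

variable {G : Type} [Group G] [Finite G] (H : Subgroup G)

/-- `G` is a free `H`-set on `H.index` generators. -/
theorem ex_beta : ∃ β : Fin H.index × H ≃ G, ∀ j (g k : H), β (j, g * k) = g * β (j, k) := by
  let σ : Fin H.index ≃ G ⧸ H := (Finite.equivFin (G ⧸ H)).symm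
  have hb : Function.Bijective fun p : Fin H.index × H => (p.2 : G) * ((σ p.1).out)⁻¹ := by
    constructor
    · rintro ⟨j, k⟩ ⟨j', k'⟩ h
      have h : (k : G) * ((σ j).out)⁻¹ = k' * ((σ j').out)⁻¹ := h
      have h1 : ((σ j).out)⁻¹ * (σ j').out = ((k⁻¹ * k' : H) : G) := by
        rw [Subgroup.coe_mul, Subgroup.coe_inv, eq_inv_mul_iff_mul_eq, ← mul_assoc, h,
          inv_mul_cancel_right]
      have h2 : σ j = σ j' := by
        rw [← (σ j).out_eq', ← (σ j').out_eq']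
        exact QuotientGroup.eq.2 (h1 ▸ (k⁻¹ * k').2)
      obtain rfl := σ.injective h2
      exact Prod.ext rfl (Subtype.ext (mul_right_cancel h))
    · intro x
      obtain ⟨k, hk⟩ := QuotientGroup.mk_out_eq_mul H x⁻¹
      refine ⟨(σ.symm (QuotientGroup.mk x⁻¹), k), ?_⟩
      change (k : G) * ((σ (σ.symm _)).out)⁻¹ = x
      rw [σ.apply_symm_apply, hk, _root_.mul_inv_rev, inv_inv, mul_inv_cancel_left]
  exact ⟨Equiv.ofBijective _ hb, fun j g k => mul_assoc (g : G) k _⟩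

variable {H}

/-- the regular representation of `G` as a sum of regular representations of `H` -/
def rs (β : Fin H.index × H ≃ G) (s : Fin 1 → G → ℝ) (j : Fin H.index) (k : H) : ℝ :=
  s 0 (β (j, k))

omit [Finite G] in
theorem rs_surj (β : Fin H.index × H ≃ G) (t : Fin H.index → H → ℝ) : ∃ s, t = rs β s :=
  ⟨fun _ x => t (β.symm x).1 (β.symm x).2, funext₂ fun j k => by rw [rs, β.symm_apply_apply]⟩

theorem dot_rs (β : Fin H.index × H ≃ G) (s t : Fin 1 → G → ℝ) :
    cd (rs β s) ⬝ᵥ cd (rs β t) = cd s ⬝ᵥ cd t := by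
  have := Fintype.ofFinite G
  have := Fintype.ofFinite H
  rw [dot_cd, dot_cd, Fin.sum_univ_one, ← Fintype.sum_prod_type']
  exact Fintype.sum_equiv β _ _ fun _ => rfl

theorem ex_theta (β : Fin H.index × H ≃ G) (n : ℕ) :
    ∃ (θ : Emb (Nat.card G * 1 + Nat.card H * n) (Nat.card H * (H.index + n)))
      (θ' : Emb (Nat.card H * (H.index + n)) (Nat.card G * 1 + Nat.card H * n)),
      (∀ s t, ap θ (Fin.append (cd s) (cd t)) = cd (Fin.append (rs β s) t)) ∧
        (∀ z, ap θ' (ap θ z) = z) ∧ ∀ z, ap θ (ap θ' z) = z := by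
  obtain ⟨a, ha⟩ := ex_cd (rs β) 0 fun s t => by rw [dot_rs, add_zero]
  obtain ⟨b, hb⟩ := ex_sumR a (Nat.card H * n)
  obtain ⟨c, -, hc, -⟩ := ex_join H H.index n
  obtain ⟨θ, hθ⟩ := ex_comp b c
  have h1 : ∀ s t, ap θ (Fin.append (cd s) (cd t)) = cd (Fin.append (rs β s) t) := fun s t => by
    rw [hθ, hb, ha, hc]
  have h2 : Function.Bijective (ap θ) := ⟨ap_inj θ, fun z => by
    obtain ⟨z, rfl⟩ := cd_surj z
    obtain ⟨s, t, rfl⟩ := ex_append' z
    obtain ⟨s, rfl⟩ := rs_surj β s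
    exact ⟨_, h1 s t⟩⟩
  obtain ⟨-, θ', -, h3⟩ := ex_equiv (Equiv.ofBijective _ h2) fun x y => by
    obtain ⟨x, x', rfl⟩ := ex_append x
    obtain ⟨y, y', rfl⟩ := ex_append y
    obtain ⟨x, rfl⟩ := cd_surj x
    obtain ⟨x', rfl⟩ := cd_surj x'
    obtain ⟨y, rfl⟩ := cd_surj y
    obtain ⟨y', rfl⟩ := cd_surj y'
    rw [Equiv.ofBijective_apply, Equiv.ofBijective_apply, h1, h1, dot_cd_append, dot_rs,
      dot_append]
  exact ⟨θ, θ', h1, fun z => (h3 _).trans ((Equiv.ofBijective _ h2).symm_apply_apply z),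
    fun z => (congrArg _ (h3 z)).trans ((Equiv.ofBijective _ h2).apply_symm_apply z)⟩

omit [Group G] in
theorem ex_split {G' : Type} [Finite G'] {a b : ℕ}
    (z : Fin (Nat.card G * a + Nat.card G' * b) → ℝ) :
    ∃ (s : Fin a → G → ℝ) (t : Fin b → G' → ℝ), z = Fin.append (cd s) (cd t) := by
  obtain ⟨x, y, rfl⟩ := ex_append z
  obtain ⟨x, rfl⟩ := cd_surj x
  obtain ⟨y, rfl⟩ := cd_surj y
  exact ⟨x, y, rfl⟩

omit [Finite G] in
theorem tw_append {a b : ℕ} (g : G) (s : Fin a → G → ℝ) (t : Fin b → G → ℝ) :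
    tw g (Fin.append s t) = Fin.append (tw g s) (tw g t) := by
  funext l k
  refine Fin.addCases (fun l => ?_) (fun l => ?_) l
  · simp only [tw, Fin.append_left]
  · simp only [tw, Fin.append_right]

/-- **Row P4.** -/
theorem p4 (G : Type) [Group G] [Finite G] : P4 G := by
  rintro H X X' Y Y' ⟨E, Eb, Ea, Eg⟩ ⟨e, he⟩ ⟨e', he'⟩
  obtain ⟨β, hβ⟩ := ex_beta H
  choose θ θ' h1 h2 h3 using ex_theta β
  let T : ∀ n, X'.V.sp (Nat.card H * n) ≃ₜ X.V.sp (Nat.card H * (H.index + n)) := fun n =>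
    (E _).trans (acH X.V (θ n) (θ' n) (h2 n) (h3 n))
  have hT : ∀ n x, T n x = X.V.ac (θ n) (E _ x) := fun _ _ => rfl
  have hg : ∀ n (g : H) x, T n (X'.V.ac (act g n) ((X'.ρ g).app _ x)) =
      X.V.ac (act g _) ((X.ρ g).app _ (T n x)) := fun n g x => by
    obtain ⟨a, ha⟩ := ex_sumL (Nat.card G * 1) (act g n)
    obtain ⟨b, hb⟩ := ex_actL (g : G) 1 (Nat.card H * n)
    obtain ⟨c, hc⟩ := ex_comp b a
    rw [hT, hT, Ea _ _ _ a ha, Eg _ _ b hb, ← X.V.ac_comp _ _ _ b a c hc, ((X.ρ g).ok _).2.2]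
    refine ac_ac X.V (fun z => ?_) _
    obtain ⟨s, t, rfl⟩ := ex_split z
    have : rs β (tw (g : G) s) = tw g (rs β s) := funext₂ fun j k => by
      rw [rs, tw, tw, rs, hβ, Subgroup.coe_inv]
    rw [hc, hb, ha, ap_act, h1, h1, ap_act, tw_append, this]
  choose φ hφ using fun n => ex_homeo ((T n).isEmbedding.comp (he' n).1) (he (H.index + n)).1
    fun x => by
      obtain ⟨x, rfl⟩ := (T n).surjective x
      rw [Set.range_comp, (T n).injective.mem_set_image, (he' n).2.2.1, (he _).2.2.1]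
      refine forall_congr' fun g => ?_
      rw [forall_isAct (P := fun h => X'.V.ac h ((X'.ρ g).app _ x) = x),
        forall_isAct (P := fun h => X.V.ac h ((X.ρ g).app _ (T n x)) = T n x), ← hg,
        (T n).injective.eq_iff]
  refine ⟨φ, fun n => (he _).1.injective ?_, fun m n f h hh y => (he _).1.injective ?_⟩
  · rw [hφ, Function.comp_apply, (he' n).2.1, (he _).2.1, hT, Eb, X.V.ac_bp]
  · obtain ⟨a, ha⟩ := ex_sumL (Nat.card G * 1) (dg H f)
    rw [hφ, (he _).2.2.2 _ h _ (ap_dg h), hφ, Function.comp_apply, Function.comp_apply,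
      (he' n).2.2.2 _ f _ (ap_dg f), hT, hT, Ea _ _ _ a ha]
    refine ac_ac X.V (fun z => ?_) _
    obtain ⟨s, t, rfl⟩ := ex_split z
    rw [ha, ap_dg, h1, h1, ap_dg]
    congr 1
    funext i k
    rw [append_apply, hh]
    exact congrFun (append_apply (rs β s) (fun i k => ap f (fun l => t l k) i) k) i

end Vale.Agent.P241GP
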