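import Vale.Agent.P241GP.P1

/-!
# A literal model of the suspension spectrum
-/

open CategoryTheory Topology OnePoint Matrix Filter

noncomputable section

namespace Vale.Agent.P241GP

open P251.St P251CX P241GX P241GR

theorem continuous_mapP {A B : Type} [TopologicalSpace A] [TopologicalSpace B] [T2Space A]
    [T2Space B] {f : A → B} (hf : IsProperMap f) : Continuous (OnePoint.map f) := by
  refine OnePoint.continuous_map hf.continuous ?_
  rw [coclosedCompact_eq_cocompact, coclosedCompact_eq_cocompact,
    hasBasis_cocompact.tendsto_right_iff]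
  exact fun C hC => (hf.isCompact_preimage hC).compl_mem_cocompact

theorem isQuotientMap_smash {A B : Type} [TopologicalSpace A] [TopologicalSpace B] [T2Space A]
    [T2Space B] [LocallyCompactSpace A] [LocallyCompactSpace B] :
    IsQuotientMap fun p : OnePoint A × OnePoint B => P251.G.LC.smash p.1 p.2 :=
  P251.G.LC.continuous_smash.isClosedMap.isQuotientMap P251.G.LC.continuous_smash fun z => by
    induction z using OnePoint.rec with
    | infty => exact ⟨(∞, ∞), rfl⟩
    | coe z => exact ⟨(z.1, z.2), rfl⟩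

/-- The suspension spectrum: level `n` is `(A × ℝⁿ)⁺`. -/
def Sg (A : Space) : OSp where
  sp n := OnePoint (A.carrier × (Fin n → ℝ))
  cg _ := inferInstance
  wh _ _ _ _ _ _ hg := (isCompact_range hg).isClosed
  bp _ := ∞
  ac f := OnePoint.map fun p => (p.1, ap f p.2)
  cont m n := by
    have := lc_emb m n
    have h : IsProperMap fun q : Emb m n × A.carrier × (Fin m → ℝ) => (q.2.1, ap q.1 q.2.2) :=
      (isProperMap_id.prodMap isProperMap_ap).comp
        ((((Homeomorph.prodAssoc _ _ _).symm.trans
          ((Homeomorph.prodComm _ _).prodCongr (Homeomorph.refl _))).trans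
            (Homeomorph.prodAssoc _ _ _)).isProperMap)
    refine ((continuous_mapP h).comp P251.G.LC.continuous_smash).congr ?_
    rintro ⟨f, x⟩
    induction f using OnePoint.rec with
    | infty => rfl
    | coe f => induction x using OnePoint.rec <;> rfl
  ac_bp _ _ _ := rfl
  ac_id n f hf x := by
    induction x using OnePoint.rec with
    | infty => rfl
    | coe x => exact congrArg (fun s => OnePoint.some (x.1, s)) (hf _)
  ac_comp k m n f g h hh x := by
    induction x using OnePoint.rec with
    | infty => rfl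
    | coe x => exact congrArg (fun s => OnePoint.some (x.1, s)) (hh _)

/-- The universal map. -/
def sgU (A : Space) : Pm A (Sg A) 0 :=
  ⟨OnePoint.map fun a => (a, fun _ => 0),
    (Homeomorph.prodUnique A.carrier (Fin 0 → ℝ)).symm.onePointCongr.continuous.congr fun x => by
      induction x using OnePoint.rec with
      | infty => rfl
      | coe x => exact congrArg (fun s => OnePoint.some (x, s)) (Subsingleton.elim _ _), rfl⟩

/-- a vector as a pair -/
def pt {n : ℕ} (v : Fin n → ℝ) : Emb 0 n := (ex_pt v).choose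

theorem ap_pt {n : ℕ} (v : Fin n → ℝ) (s) : ap (pt v) s = v := (ex_pt v).choose_spec s

theorem continuous_pt {n : ℕ} : Continuous (pt : (Fin n → ℝ) → _) :=
  continuous_emb fun s => by
    simp only [ap_pt]
    exact continuous_id

theorem continuous_ptO {n : ℕ} : Continuous (OnePoint.map (pt : (Fin n → ℝ) → _)) :=
  continuous_mapO continuous_pt fun r => by
    simp only [ap_pt]
    exact isCompact_dot r

theorem ac_pt (X : OSp) {m n : ℕ} (f : Emb m n) (s : Fin m → ℝ) (x : X.sp 0) :
    X.ac f (X.ac (pt s) x) = X.ac (pt (ap f s)) x :=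
  (X.ac_comp _ _ _ _ _ _ (fun z => by rw [ap_pt, ap_pt]) x).symm

variable {A : Space} {X Y : OSp}

/-- The morphism out of the suspension spectrum given by a based map. -/
def sgD (v : Pm A Y 0) : Mor (Sg A) Y where
  app n x := OnePoint.elim x (Y.bp n) fun p => Y.ac (pt p.2) (v.fn (.some p.1))
  ok n := by
    refine ⟨(isQuotientMap_smash (A := A.carrier) (B := Fin n → ℝ)).continuous_iff.2
      (((Y.cont 0 n).comp ((continuous_ptO.comp continuous_snd).prodMk
        (v.cont.comp continuous_fst))).congr ?_), rfl, fun m f x => ?_⟩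
    · rintro ⟨a, s⟩
      induction s using OnePoint.rec with
      | infty => induction a using OnePoint.rec <;> rfl
      | coe s =>
        induction a using OnePoint.rec with
        | infty => exact (congrArg (Y.ac (pt s)) v.based).trans (Y.ac_bp _ _ _)
        | coe a => rfl
    · induction x using OnePoint.rec with
      | infty => exact (Y.ac_bp _ _ _).symm
      | coe x => exact (ac_pt Y f _ _).symm

theorem sgD_coe (v : Pm A Y 0) {n : ℕ} (a : A.carrier) (s : Fin n → ℝ) :
    (sgD v).app n (.some (a, s)) = Y.ac (pt s) (v.fn (.some a)) := rfl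

theorem sgD_u (v : Pm A Y 0) (x) : (sgD v).app 0 ((sgU A).fn x) = v.fn x := by
  induction x using OnePoint.rec with
  | infty => exact v.based.symm
  | coe x => exact ac_zero Y _ _

/-- **The model is free.** -/
theorem isFree_sgU (A : Space) : IsFree (sgU A) := fun Y v => by
  refine ⟨sgD v, sgD_u v, fun h hh => mor_ext fun n x => ?_⟩
  induction x using OnePoint.rec with
  | infty => exact (h.ok n).2.1
  | coe x =>
    have e : (OnePoint.some x : (Sg A).sp n) = (Sg A).ac (pt x.2) ((sgU A).fn (.some x.1)) :=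
      congrArg (fun s => OnePoint.some (x.1, s)) (ap_pt _ _).symm
    exact (congrArg (h.app n) e).trans (((h.ok n).2.2 _ _ _).trans (congrArg _ (hh _)))

/-- postcomposition of a based map with a morphism -/
def post {n : ℕ} (u : Pm A X n) (f : Mor X Y) : Pm A Y n :=
  ⟨fun x => f.app n (u.fn x), (f.ok n).1.comp u.cont, (congrArg _ u.based).trans (f.ok n).2.1⟩

theorem free_of_iso {u : Pm A X 0} (hu : IsFree u) (φ : X ≅ Y) : IsFree (post u φ.hom) :=
  fun Z v => by
    obtain ⟨h, hh, hq⟩ := hu Z v
    have e : ∀ x, φ.inv.app 0 (φ.hom.app 0 x) = x := fun x =>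
      congrArg (fun ψ : Mor X X => ψ.app 0 x) φ.hom_inv_id
    refine ⟨cmp φ.inv h, fun x => (congrArg (h.app 0) (e _)).trans (hh x), fun h' hh' => ?_⟩
    have e' : cmp φ.hom h' = h := hq _ hh'
    rw [← e']
    exact (φ.inv_hom_id_assoc (h' : Y ⟶ Z)).symm

/-- A free spectrum is the model. -/
theorem free_isIso {u : Pm A X 0} (hu : IsFree u) : @IsIso _ _ (Sg A) X (sgD u) := by
  obtain ⟨g, hg, -⟩ := hu _ (sgU A)
  refine ⟨g, ((isFree_sgU A) _ (sgU A)).unique (fun x => ?_) fun _ => rfl,
    (hu _ u).unique (fun x => ?_) fun _ => rfl⟩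
  · exact (congrArg (g.app 0) (sgD_u u x)).trans (hg x)
  · exact (congrArg ((sgD u).app 0) (hg x)).trans (sgD_u u x)

theorem isHomeomorph_app (φ : X ≅ Y) (n : ℕ) :
    ∃ e : X.sp n ≃ₜ Y.sp n, ∀ x, e x = φ.hom.app n x :=
  ⟨⟨⟨φ.hom.app n, φ.inv.app n, fun x => congrArg (fun ψ : Mor X X => ψ.app n x) φ.hom_inv_id,
    fun y => congrArg (fun ψ : Mor Y Y => ψ.app n y) φ.inv_hom_id⟩, (φ.hom.ok n).1,
      (φ.inv.ok n).1⟩, fun _ => rfl⟩

/-- The levels of a free spectrum. -/
theorem free_homeo {u : Pm A X 0} (hu : IsFree u) (n : ℕ) :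
    ∃ e : OnePoint (A.carrier × (Fin n → ℝ)) ≃ₜ X.sp n, ∀ x, e x = (sgD u).app n x :=
  isHomeomorph_app (@asIso _ _ (Sg A) X (sgD u) (free_isIso hu)) n

end Vale.Agent.P241GP
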